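import Vale.Agent.P144V.Defs
import Vale.Agent.P144F58.Sum
import Vale.Agent.P153D.Seq
import Vale.Agent.P153D.Fou
import Vale.Agent.P153DC.Ala
import Vale.Agent.P153DS.Syn
import Vale.Agent.P153DN.Nuc
import Vale.Agent.P153DT.Tig
import Vale.Agent.P153DU.Uni

/-!
The spin field converges in law in the space of distributions.
-/

set_option autoImplicit false
set_option linter.all false

namespace Vale.Agent.P144V

open Filter Topology MeasureTheory TopologicalSpace Vale.Agent.P144 Vale.Agent.P144F58
open Vale.Agent.P153D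

theorem nuc : NUC := P153DN.nuc_of fou2 P153DS.syn

theorem tig : TIG := P153DT.tig_of seq nuc P153DC.ala

theorem uni : UNI := P153DU.uni_of tig (P153DN.sep_of nuc)

theorem fer : FER := P153DT.fer_of tig uni

theorem test (f : Smooth) : Test f := by
  refine ⟨f.contDiff.continuous.measurable, ?_,
    f.hasCompactSupport.isCompact.isBounded.subset (subset_tsupport _)⟩
  obtain ⟨B, hB⟩ := f.contDiff.continuous.bounded_above_of_compact_support f.hasCompactSupport
  exact ⟨B, hB⟩

theorem smear_cont {f : ℂ → ℝ} (hf : Test f) (a : ℝ) : Continuous (smear a f) :=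
  continuous_of_dominated (fun σ => (smear_int hf a σ).aestronglyMeasurable)
    (fun σ => Eventually.of_forall (smear_bd f a σ)) (hf.int.abs.const_mul _)
    (Eventually.of_forall fun x => continuous_const.mul (continuous_const.mul
      ((continuous_of_discreteTopology (f := sp)).comp (continuous_apply (fl a x)))))

theorem exists_T (a : ℝ) (σ : Config) : ∃ T : Distr, ∀ f : Smooth, T f = smear a f σ := by
  have hm : Measurable fun x : ℂ => a ^ (-(1 / 8) : ℝ) * sp (σ (fl a x)) :=
    (spin_meas a).comp (f := fun x : ℂ => (x, σ)) (measurable_id.prodMk measurable_const)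
  have hg : LocallyIntegrable fun x : ℂ => a ^ (-(1 / 8) : ℝ) * sp (σ (fl a x)) :=
    (locallyIntegrable_const |a ^ (-(1 / 8) : ℝ)|).mono hm.aestronglyMeasurable
      (Eventually.of_forall fun x => by
        rw [Real.norm_eq_abs, Real.norm_eq_abs, abs_mul, abs_sp, mul_one, abs_abs])
  refine ⟨(TestFunction.integralAgainstBilinCLM (ContinuousLinearMap.mul ℝ ℝ) volume
    (fun x : ℂ => a ^ (-(1 / 8) : ℝ) * sp (σ (fl a x))) : Smooth →L[ℝ] ℝ), fun f => ?_⟩
  exact TestFunction.integralAgainstBilinCLM_eq_integral (n := ⊤)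
    (B := ContinuousLinearMap.mul ℝ ℝ) (hg.locallyIntegrableOn _) (f := f)

theorem cont_X {a : ℝ} {X : Config → Distr} (hX : ∀ σ (f : Smooth), X σ f = smear a f σ) :
    Continuous X := by
  obtain ⟨Q, hQ, hS⟩ := P153DC.ala ⊤ (Set.range X) fun K hK _ => by
    refine ⟨0, |a ^ (-(1 / 8) : ℝ)| * volume.real K, ?_⟩
    rintro _ ⟨σ, rfl⟩ φ hφ B hB
    have hb : ∀ x, |φ x| ≤ B := fun x => by simpa using hB 0 le_rfl x
    have h1 : ∫ x, |φ x| ≤ volume.real K * B := by
      rw [← setIntegral_eq_integral_of_forall_compl_eq_zero (s := K) fun x hx => by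
        rw [image_eq_zero_of_notMem_tsupport fun h => hx (hφ h), abs_zero], mul_comm]
      refine (le_abs_self _).trans ?_
      rw [← Real.norm_eq_abs]
      exact norm_setIntegral_le_of_norm_le_const hK.measure_lt_top fun x _ => by
        simpa using hb x
    rw [hX, mul_assoc]
    refine le_trans ?_ (mul_le_mul_of_nonneg_left h1 (abs_nonneg _))
    rw [← integral_const_mul]
    exact norm_integral_le_of_norm_le ((test φ).int.abs.const_mul _)
      (Eventually.of_forall (smear_bd φ a σ))
  haveI := isCompact_iff_compactSpace.1 hQ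
  have hc : Continuous fun (T : Q) (f : Smooth) => T.1 f :=
    continuous_pi fun f => (cont_ev f).comp continuous_subtype_val
  have he := hc.isClosedEmbedding fun T T' h => Subtype.ext (DFunLike.ext _ _ (congrFun h))
  have h2 : Continuous fun σ => (⟨X σ, hS ⟨σ, rfl⟩⟩ : Q) :=
    he.isInducing.continuous_iff.2 (continuous_pi fun f => by
      simpa only [Function.comp_def, hX] using smear_cont (test f) a)
  exact continuous_subtype_val.comp h2

theorem lawD {μ : Measure Config} [IsProbabilityMeasure μ] {Z : ℝ} {C : Pts → ℝ}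
    (hL : Law μ Z C) : LawD μ Z C := by
  choose X hX using exists_T
  have mX : ∀ a, Measurable (X a) := fun a => (cont_X (hX a)).measurable
  let ρ : ℝ → ProbabilityMeasure Distr := fun a =>
    ⟨μ.map (X a), Measure.isProbabilityMeasure_map (mX a).aemeasurable⟩
  have hρ : ∀ a (G : Distr → ℝ), Continuous G → ∫ T, G T ∂(ρ a) = ∫ σ, G (X a σ) ∂μ :=
    fun a G hG => integral_map (mX a).aemeasurable hG.measurable.aestronglyMeasurable
  choose ν hν hu hl using fun k (f : Fin k → Smooth) => hL k (fun i => f i) fun i => test (f i)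
  have cv : ∀ k (f : Fin k → Smooth), Continuous fun T : Distr =>
      (WithLp.toLp 2 fun i => T (f i) : EuclideanSpace ℝ (Fin k)) := fun k f =>
    (PiLp.continuous_toLp 2 _).comp (continuous_pi fun i => cont_ev (f i))
  have c0 : Continuous fun y : EuclideanSpace ℝ (Fin 1) => y 0 := by fun_prop
  let ν1 : Smooth → ProbabilityMeasure ℝ := fun φ =>
    ⟨(ν 1 fun _ => φ).map fun y => y 0,
      haveI := (hν 1 fun _ => φ).1
      Measure.isProbabilityMeasure_map c0.measurable.aemeasurable⟩
  have h1 : ∀ φ : Smooth, Tendsto (fun a => (ρ a).map (meas_ev φ).aemeasurable) (𝓝[>] 0)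
      (𝓝 (ν1 φ)) := fun φ => by
    refine ProbabilityMeasure.tendsto_iff_forall_integral_tendsto.2 fun F => ?_
    have e : ∫ x, F x ∂(ν1 φ : Measure ℝ) = ∫ y, F (y 0) ∂(ν 1 fun _ => φ) :=
      integral_map c0.measurable.aemeasurable F.continuous.aestronglyMeasurable
    rw [e]
    refine (hl 1 (fun _ => φ) (F.compContinuous ⟨_, c0⟩)).congr fun a => ?_
    show _ = ∫ x, F x ∂((ρ a : Measure Distr).map fun T : Distr => T φ)
    rw [integral_map (meas_ev φ).aemeasurable F.continuous.aestronglyMeasurable,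
      hρ a (fun T => F (T φ)) (F.continuous.comp (cont_ev φ))]
    simp only [hX]
    rfl
  obtain ⟨u, hu0⟩ := (𝓝[>] (0 : ℝ)).exists_seq_tendsto
  obtain ⟨P, hP, -⟩ := fer ⊤ (ρ ∘ u) ν1 fun φ => (h1 φ).comp hu0
  have un : ∀ P' : Measure Distr, IsProbabilityMeasure P' →
      (∀ φ : Smooth, P'.map (fun T => T φ) = ν1 φ) → P' = P := fun P' p h =>
    uni ⊤ _ _ p P.2 fun φ => (h φ).trans (congrArg Subtype.val (hP φ)).symm
  have lim : Tendsto ρ (𝓝[>] 0) (𝓝 P) := tendsto_of_seq_tendsto fun v hv => by
    obtain ⟨G, hG, h⟩ := fer ⊤ (ρ ∘ v) ν1 fun φ => (h1 φ).comp hv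
    rwa [show G = P from Subtype.ext (un G G.2 fun φ => congrArg Subtype.val (hG φ))] at h
  have lim' : ∀ F : BoundedContinuousFunction Distr ℝ,
      Tendsto (fun a => ∫ σ, F (X a σ) ∂μ) (𝓝[>] 0) (𝓝 (∫ T, F T ∂P)) := fun F =>
    (ProbabilityMeasure.tendsto_iff_forall_integral_tendsto.1 lim F).congr
      fun a => hρ a _ F.continuous
  refine ⟨X, fun a _ => ⟨mX a, hX a⟩, P, ⟨P.2, fun n hn f => ?_⟩, fun P' h' => ?_, lim'⟩
  · haveI := (hν n f).1
    have e : (P : Measure Distr).map (fun T => WithLp.toLp 2 fun i => T (f i)) = ν n f := by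
      refine ext_of_forall_integral_eq_of_IsFiniteMeasure fun F => ?_
      rw [integral_map (cv n f).measurable.aemeasurable F.continuous.aestronglyMeasurable]
      refine tendsto_nhds_unique (lim' (F.compContinuous ⟨_, cv n f⟩)) ((hl n f F).congr fun a => ?_)
      simp only [BoundedContinuousFunction.compContinuous_apply, ContinuousMap.coe_mk, hX]
    obtain ⟨k1, k2⟩ := (hν n f).2 n hn id
    have cp : Continuous fun y : EuclideanSpace ℝ (Fin n) => ∏ j, y (id j) := by fun_prop
    rw [← e] at k1 k2
    rw [integral_map (cv n f).measurable.aemeasurable cp.aestronglyMeasurable] at k2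
    exact ⟨(integrable_map_measure cp.aestronglyMeasurable
      (cv n f).measurable.aemeasurable).1 k1, k2⟩
  · haveI := h'.1
    refine un P' h'.1 fun φ => ?_
    have e : P'.map (fun T => WithLp.toLp 2 fun _ : Fin 1 => T φ) = ν 1 fun _ => φ := by
      refine hu 1 _ _ ⟨Measure.isProbabilityMeasure_map
        (cv 1 fun _ => φ).measurable.aemeasurable, fun n hn i => ?_⟩
      have cp : Continuous fun y : EuclideanSpace ℝ (Fin 1) => ∏ j, y (i j) := by fun_prop
      obtain ⟨k1, k2⟩ := h'.2 n hn fun _ => φ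
      rw [integral_map (cv 1 fun _ => φ).measurable.aemeasurable cp.aestronglyMeasurable]
      exact ⟨(integrable_map_measure cp.aestronglyMeasurable
        (cv 1 fun _ => φ).measurable.aemeasurable).2 k1, k2⟩
    show _ = (ν 1 fun _ => φ).map fun y => y 0
    rw [← e, Measure.map_map c0.measurable (cv 1 fun _ => φ).measurable]
    rfl

end Vale.Agent.P144V
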