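import Vale.Agent.P144F58.Defs
import Mathlib.Analysis.Distribution.Distribution

/-!
Convergence in law of the spin field in the space of distributions in the plane.
-/

namespace Vale.Agent.P144V

open Filter Topology MeasureTheory TopologicalSpace Vale.Agent.P144 Vale.Agent.P144F58

/-- Smooth functions of compact support in the plane. -/
abbrev Smooth : Type := TestFunction (⊤ : Opens ℂ) ℝ ⊤

/-- Distributions in the plane. -/
abbrev Distr : Type := Distribution (⊤ : Opens ℂ) ℝ ⊤

/-- `P` is a Borel probability measure on the space of distributions whose mixed moments are the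
integrals of `Z ^ n * C`. -/
def DistrMom (Z : ℝ) (C : Pts → ℝ) (P : @Measure Distr (borel Distr)) : Prop :=
  IsProbabilityMeasure P ∧ ∀ n > 0, ∀ f : Fin n → Smooth,
    Integrable (fun T : Distr => ∏ i, T (f i)) P ∧
    ∫ T, ∏ i, T (f i) ∂P = Z ^ n * ∫ x : Fin n → ℂ, (∏ i, f i (x i)) * C ⟨n, 0, x, ![], ![]⟩

/-- The spin field of mesh `a` is a random distribution `X a`, and its law converges weakly to the
only law on the space of distributions with the limiting moments. -/
def LawD (μ : Measure Config) (Z : ℝ) (C : Pts → ℝ) : Prop :=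
  ∃ X : ℝ → Config → Distr,
    (∀ a > 0, @Measurable _ _ _ (borel Distr) (X a) ∧ ∀ σ (f : Smooth), X a σ f = smear a f σ) ∧
    ∃ P, DistrMom Z C P ∧ (∀ P', DistrMom Z C P' → P' = P) ∧
      ∀ F : BoundedContinuousFunction Distr ℝ,
        Tendsto (fun a => ∫ σ, F (X a σ) ∂μ) (𝓝[>] 0) (𝓝 (∫ T, F T ∂P))

end Vale.Agent.P144V
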